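import Mathlib

/-! P038: the unweighted core (greedy marginals, Hall, one exchange of minimal pairs). -/

namespace Vale.Agent.P038.H786

open Finset Classical

variable {V : Type*} [Fintype V] (R : V → V → Prop)

/-- closed out-neighbourhood -/
noncomputable def N (X : Finset V) : Finset V := univ.filter fun y => ∃ x ∈ X, R x y

/-- size of the outer boundary -/
noncomputable def c (X : Finset V) : ℤ := ((N R X).card : ℤ) - X.card

lemma mem_N {X : Finset V} {y : V} : y ∈ N R X ↔ ∃ x ∈ X, R x y := by simp [N]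

lemma N_mono {X Y : Finset V} (h : X ⊆ Y) : N R X ⊆ N R Y := by
  intro y hy
  rw [mem_N] at hy ⊢
  obtain ⟨x, hx, hr⟩ := hy
  exact ⟨x, h hx, hr⟩

lemma N_union (X Y : Finset V) : N R (X ∪ Y) = N R X ∪ N R Y := by
  ext y
  simp only [mem_N, mem_union]
  constructor
  · rintro ⟨x, hx | hx, hr⟩
    · exact Or.inl ⟨x, hx, hr⟩
    · exact Or.inr ⟨x, hx, hr⟩
  · rintro (⟨x, hx, hr⟩ | ⟨x, hx, hr⟩)
    · exact ⟨x, Or.inl hx, hr⟩
    · exact ⟨x, Or.inr hx, hr⟩

lemma submod (X Y : Finset V) : c R (X ∩ Y) + c R (X ∪ Y) ≤ c R X + c R Y := by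
  have h1 := card_union_add_card_inter (N R X) (N R Y)
  have h2 := card_union_add_card_inter X Y
  have h3 : (N R (X ∩ Y)).card ≤ (N R X ∩ N R Y).card :=
    card_le_card (subset_inter (N_mono R inter_subset_left) (N_mono R inter_subset_right))
  unfold c
  rw [N_union]
  omega

/-- least value of `c` between `Y` and `K` -/
noncomputable def cm (K Y : Finset V) : ℤ :=
  K.powerset.inf' ⟨K, mem_powerset_self K⟩ fun Z => c R (Z ∪ Y)

lemma cm_le {K Y Z : Finset V} (h1 : Y ⊆ Z) (h2 : Z ⊆ K) : cm R K Y ≤ c R Z := by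
  have h := inf'_le (fun Z => c R (Z ∪ Y)) (mem_powerset.2 h2)
  have e : Z ∪ Y = Z := union_eq_left.2 h1
  simp only [e] at h
  exact h

lemma exists_cm {K Y : Finset V} (h : Y ⊆ K) : ∃ Z, Y ⊆ Z ∧ Z ⊆ K ∧ cm R K Y = c R Z := by
  obtain ⟨Z, hZ, he⟩ :=
    exists_mem_eq_inf' (s := K.powerset) ⟨K, mem_powerset_self K⟩ (fun Z => c R (Z ∪ Y))
  exact ⟨Z ∪ Y, subset_union_right, union_subset (mem_powerset.1 hZ) h, he⟩

lemma cm_mono {K Y Y' : Finset V} (h : Y ⊆ Y') (h' : Y' ⊆ K) : cm R K Y ≤ cm R K Y' := by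
  obtain ⟨Z, h1, h2, h3⟩ := exists_cm R h'
  rw [h3]
  exact cm_le R (h.trans h1) h2

lemma marg {K' K X Y : Finset V} {b : V} (hK : K' ⊆ K) (hX : X ⊆ K') (hXY : X ⊆ Y)
    (hY : Y ⊆ K) (hb : b ∈ K') :
    cm R K (insert b Y) - cm R K Y ≤ cm R K' (insert b X) - cm R K' X := by
  obtain ⟨Z', h1, h2, h3⟩ := exists_cm R (insert_subset hb hX)
  obtain ⟨Z, h4, h5, h6⟩ := exists_cm R hY
  have h7 := cm_le R (K := K') (Y := X) (Z := Z' ∩ Z)
    (subset_inter ((subset_insert _ _).trans h1) (hXY.trans h4)) (inter_subset_left.trans h2)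
  have h8 := cm_le R (K := K) (Y := insert b Y) (Z := Z' ∪ Z)
    (insert_subset (mem_union_left _ (h1 (mem_insert_self _ _))) (h4.trans subset_union_right))
    (union_subset (h2.trans hK) h5)
  have h9 := submod R Z' Z
  linarith

/-- erosion over the in-neighbours -/
noncomputable def S (P : V → Finset V) (a : V) : Finset V :=
  univ.filter fun b => ∀ z, R z a → b ∈ P z

lemma mem_S {P : V → Finset V} {a b : V} : b ∈ S R P a ↔ ∀ z, R z a → b ∈ P z := by simp [S]

lemma c_filter_le {P Q : V → Finset V} (hPQ : ∀ a, P a ⊆ Q a)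
    (hrow : ∀ a Y, P a ⊆ Y → Y ⊆ Q a → c R (P a) ≤ c R Y) (F Z : Finset V)
    (hZ : ∀ z ∈ F, Z ⊆ Q z) : c R (Z.filter fun b => ∀ z ∈ F, b ∈ P z) ≤ c R Z := by
  induction F using Finset.induction_on with
  | empty => simp
  | insert z F hz ih =>
    have ih' := ih (fun y hy => hZ y (mem_insert_of_mem hy))
    set T := Z.filter fun b => ∀ z ∈ F, b ∈ P z with hT
    have e : (Z.filter fun b => ∀ y ∈ insert z F, b ∈ P y) = T ∩ P z := by
      ext b
      simp only [hT, mem_filter, mem_inter, mem_insert, forall_eq_or_imp]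
      tauto
    have h1 := submod R T (P z)
    have h2 := hrow z (T ∪ P z) subset_union_right
      (union_subset ((filter_subset _ _).trans (hZ z (mem_insert_self _ _))) (hPQ z))
    rw [e]
    linarith

lemma c_S_le {P Q : V → Finset V} (hPQ : ∀ a, P a ⊆ Q a)
    (hrow : ∀ a Y, P a ⊆ Y → Y ⊆ Q a → c R (P a) ≤ c R Y) (a : V) (Z : Finset V)
    (h1 : S R P a ⊆ Z) (h2 : Z ⊆ S R Q a) : c R (S R P a) ≤ c R Z := by
  have h := c_filter_le R hPQ hrow (univ.filter fun z => R z a) Z (by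
    intro z hz b hb
    exact (mem_S R).1 (h2 hb) z (by simpa using hz))
  have e : (Z.filter fun b => ∀ z ∈ univ.filter (fun z => R z a), b ∈ P z) = S R P a := by
    ext b
    simp only [mem_filter, mem_univ, true_and, mem_S]
    constructor
    · exact fun h => h.2
    · exact fun h => ⟨h1 ((mem_S R).2 h), h⟩
  rwa [e] at h

/-- initial segments of an enumeration -/
noncomputable def Vi (i : ℕ) : Finset V := univ.filter fun v => (Fintype.equivFin V v : ℕ) < i

lemma Vi_zero : (Vi 0 : Finset V) = ∅ := by simp [Vi]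

lemma Vi_top : (Vi (Fintype.card V) : Finset V) = univ := by
  simp [Vi]

lemma Vi_succ {i : ℕ} (h : i < Fintype.card V) :
    (Vi (i + 1) : Finset V) = insert ((Fintype.equivFin V).symm ⟨i, h⟩) (Vi i) := by
  ext v
  simp only [Vi, mem_filter, mem_univ, true_and, mem_insert]
  constructor
  · intro hv
    rcases Nat.lt_succ_iff_lt_or_eq.1 hv with h1 | h1
    · exact Or.inr h1
    · left
      rw [Equiv.eq_symm_apply]
      exact Fin.ext h1
  · rintro (rfl | h1)
    · simp
    · omega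

/-- the parametrised least values -/
noncomputable def k (P Q : Finset V) (i : ℕ) : ℤ := cm R Q (P ∪ (Q ∩ Vi i))

lemma k_zero {P Q : Finset V} (hPQ : P ⊆ Q)
    (h : ∀ Y, P ⊆ Y → Y ⊆ Q → c R P ≤ c R Y) : k R P Q 0 = c R P := by
  unfold k
  rw [Vi_zero, inter_empty, union_empty]
  apply le_antisymm (cm_le R (Subset.refl _) hPQ)
  obtain ⟨Z, h1, h2, h3⟩ := exists_cm R hPQ
  rw [h3]
  exact h Z h1 h2

lemma k_top {P Q : Finset V} (hPQ : P ⊆ Q) : k R P Q (Fintype.card V) = c R Q := by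
  unfold k
  rw [Vi_top, inter_univ, union_eq_right.2 hPQ]
  obtain ⟨Z, h1, h2, h3⟩ := exists_cm R (Subset.refl Q)
  rw [h3, Subset.antisymm h2 h1]

lemma k_mono {P Q : Finset V} (hPQ : P ⊆ Q) (i : ℕ) : k R P Q i ≤ k R P Q (i + 1) := by
  apply cm_mono
  · apply union_subset_union_right
    apply inter_subset_inter_left
    intro v
    simp only [Vi, mem_filter, mem_univ, true_and]
    omega
  · exact union_subset hPQ inter_subset_left

lemma k_tel (P Q : Finset V) (n : ℕ) :
    ∑ i ∈ range n, (k R P Q (i + 1) - k R P Q i) = k R P Q n - k R P Q 0 :=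
  Finset.sum_range_sub _ _

/-- the step at one index -/
lemma step {P Q : V → Finset V} (hPQ : ∀ a, P a ⊆ Q a)
    (hcol : ∀ (b : V) (T : Finset V), (∀ a ∈ T, b ∈ Q a ∧ b ∉ P a) →
      T.card ≤ (univ.filter fun a' => b ∈ S R Q a' ∧ ∃ z ∈ T, R z a').card)
    {i : ℕ} (hi : i < Fintype.card V) :
    ∑ a, (k R (P a) (Q a) (i + 1) - k R (P a) (Q a) i) ≤
      ∑ a, (k R (S R P a) (S R Q a) (i + 1) - k R (S R P a) (S R Q a) i) := by
  set b : V := (Fintype.equivFin V).symm ⟨i, hi⟩ with hb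
  have hS : ∀ a, S R P a ⊆ S R Q a := by
    intro a x hx
    rw [mem_S] at hx ⊢
    exact fun z hz => hPQ z (hx z hz)
  set y : V → ℤ := fun a => k R (P a) (Q a) (i + 1) - k R (P a) (Q a) i with hy
  set m : V → ℤ := fun a => k R (S R P a) (S R Q a) (i + 1) - k R (S R P a) (S R Q a) i with hm
  have hm0 : ∀ a, 0 ≤ m a := fun a => sub_nonneg.2 (k_mono R (hS a) i)
  have hy0 : ∀ a, ¬ (b ∈ Q a ∧ b ∉ P a) → y a = 0 := by
    intro a ha
    have e : P a ∪ (Q a ∩ Vi (i + 1)) = P a ∪ (Q a ∩ Vi i) := by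
      rw [Vi_succ hi]
      ext v
      simp only [mem_union, mem_inter, mem_insert]
      constructor
      · rintro (h | ⟨h1, h2 | h2⟩)
        · exact Or.inl h
        · left
          by_contra h3
          rw [← hb] at h2
          subst h2
          exact ha ⟨h1, h3⟩
        · exact Or.inr ⟨h1, h2⟩
      · rintro (h | ⟨h1, h2⟩)
        · exact Or.inl h
        · exact Or.inr ⟨h1, Or.inr h2⟩
    simp only [hy, k, e, sub_self]
  have hle : ∀ a a', R a a' → b ∈ S R Q a' → y a ≤ m a' := by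
    intro a a' haa hba
    have hbQ : b ∈ Q a := (mem_S R).1 hba a haa
    have e1 : P a ∪ (Q a ∩ Vi (i + 1)) = insert b (P a ∪ (Q a ∩ Vi i)) := by
      rw [Vi_succ hi, ← hb, inter_insert_of_mem hbQ, union_insert]
    have e2 : S R P a' ∪ (S R Q a' ∩ Vi (i + 1)) = insert b (S R P a' ∪ (S R Q a' ∩ Vi i)) := by
      rw [Vi_succ hi, ← hb, inter_insert_of_mem hba, union_insert]
    have hPa : S R P a' ⊆ P a := fun x hx => (mem_S R).1 hx a haa
    have hQa : S R Q a' ⊆ Q a := fun x hx => (mem_S R).1 hx a haa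
    simp only [hy, hm, k, e1, e2]
    exact marg R hQa (union_subset (hS a') inter_subset_left)
      (union_subset_union hPa (inter_subset_inter_right hQa))
      (union_subset (hPQ a) inter_subset_left) hba
  set G : Finset V := univ.filter fun a => b ∈ Q a ∧ b ∉ P a with hG
  let t : G → Finset V := fun a => univ.filter fun a' => R a a' ∧ b ∈ S R Q a'
  have hall : ∀ s : Finset G, s.card ≤ (s.biUnion t).card := by
    intro s
    have h := hcol b (s.map (Function.Embedding.subtype _)) (by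
      intro a ha
      rw [mem_map] at ha
      obtain ⟨x, -, rfl⟩ := ha
      exact (mem_filter.1 x.2).2)
    rw [card_map] at h
    refine h.trans (card_le_card ?_)
    intro a' ha'
    simp only [mem_filter, mem_univ, true_and, mem_map] at ha'
    obtain ⟨h1, z, ⟨x, hx, rfl⟩, h2⟩ := ha'
    rw [mem_biUnion]
    exact ⟨x, hx, by simp only [t, mem_filter, mem_univ, true_and]; exact ⟨h2, h1⟩⟩
  obtain ⟨f, hf, hft⟩ := (Finset.all_card_le_biUnion_card_iff_exists_injective t).1 hall
  calc ∑ a, y a = ∑ a ∈ G, y a := by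
        symm
        apply sum_subset (subset_univ _)
        intro a _ ha
        apply hy0
        intro h
        exact ha (by rw [hG, mem_filter]; exact ⟨mem_univ _, h⟩)
    _ = ∑ x : G, y x := (sum_coe_sort G y).symm
    _ ≤ ∑ x : G, m (f x) := by
        apply sum_le_sum
        intro x _
        have h := hft x
        simp only [t, mem_filter, mem_univ, true_and] at h
        exact hle x (f x) h.1 h.2
    _ = ∑ a ∈ univ.map ⟨f, hf⟩, m a := by rw [sum_map]; rfl
    _ ≤ ∑ a, m a := sum_le_univ_sum_of_nonneg hm0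

/-- the key inequality -/
theorem key {P Q : V → Finset V} (hPQ : ∀ a, P a ⊆ Q a)
    (hrow : ∀ a Y, P a ⊆ Y → Y ⊆ Q a → c R (P a) ≤ c R Y)
    (hcol : ∀ (b : V) (T : Finset V), (∀ a ∈ T, b ∈ Q a ∧ b ∉ P a) →
      T.card ≤ (univ.filter fun a' => b ∈ S R Q a' ∧ ∃ z ∈ T, R z a').card) :
    ∑ a, (c R (Q a) - c R (P a)) ≤ ∑ a, (c R (S R Q a) - c R (S R P a)) := by
  have hS : ∀ a, S R P a ⊆ S R Q a := by
    intro a x hx
    rw [mem_S] at hx ⊢
    exact fun z hz => hPQ z (hx z hz)
  have e1 : ∀ a, c R (Q a) - c R (P a) =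
      ∑ i ∈ range (Fintype.card V), (k R (P a) (Q a) (i + 1) - k R (P a) (Q a) i) := by
    intro a
    rw [k_tel, k_top R (hPQ a), k_zero R (hPQ a) (hrow a)]
  have e2 : ∀ a, c R (S R Q a) - c R (S R P a) =
      ∑ i ∈ range (Fintype.card V),
        (k R (S R P a) (S R Q a) (i + 1) - k R (S R P a) (S R Q a) i) := by
    intro a
    rw [k_tel, k_top R (hS a), k_zero R (hS a) (fun Y h1 h2 => c_S_le R hPQ hrow a Y h1 h2)]
  rw [sum_congr rfl fun a _ => e1 a, sum_congr rfl fun a _ => e2 a, sum_comm,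
    sum_comm (s := univ)]
  apply sum_le_sum
  intro i hi
  exact step R hPQ hcol (mem_range.1 hi)

end Vale.Agent.P038.H786
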